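import Vale.Agent.P065.Shear

/-!
Linear bounds on halving lines and `k`-sets of planar sets covered by few sets in convex position.
-/

namespace Vale.Agent.Results.P065.ConvexPieces

open Finset Vale.Agent.P065

open Classical in
/-- If a planar set in general position is covered by `m` sets in convex position then it has at
most `2 m n` halving lines and at most `4 m n + 2` sets of each size cut off by a line. -/
theorem result :
    ∀ (P : Finset (ℝ × ℝ)),
      (∀ p ∈ P, ∀ q ∈ P, ∀ r ∈ P, p ≠ q → p ≠ r → q ≠ r →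
        (q.1 - p.1) * (r.2 - p.2) - (q.2 - p.2) * (r.1 - p.1) ≠ 0) →
    ∀ (m : ℕ) (C : Fin m → Finset (ℝ × ℝ)), (∀ p ∈ P, ∃ i, p ∈ C i) →
      (∀ i, ConvexIndependent ℝ (Subtype.val : C i → ℝ × ℝ)) →
      ((P ×ˢ P).filter fun e => e.1 ≠ e.2 ∧
          (P.filter fun r =>
            0 < (e.2.1 - e.1.1) * (r.2 - e.1.2) - (e.2.2 - e.1.2) * (r.1 - e.1.1)).card =
          (P.filter fun r =>
            (e.2.1 - e.1.1) * (r.2 - e.1.2) - (e.2.2 - e.1.2) * (r.1 - e.1.1) < 0).card).card ≤
        4 * m * P.card ∧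
      ∀ k : ℕ, (P.powerset.filter fun S => S.card = k ∧ ∃ a b c : ℝ,
        (∀ p ∈ S, c < a * p.1 + b * p.2) ∧ ∀ q ∈ P, q ∉ S → a * q.1 + b * q.2 < c).card ≤
        4 * m * P.card + 2 := by
  intro P hgp m C hcov hC
  exact bounds P hgp m (fun i => (C i : Set (ℝ × ℝ))) (by simpa using hcov)
    fun i => exposed_of_convexIndependent (C i).finite_toSet (hC i)

end Vale.Agent.Results.P065.ConvexPieces
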